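import Vale.Agent.P344.CancelMain

/-!
P344: a scale-invariant determinant bound.  In a linear circuit computing the discrete Fourier
transform, with arbitrary complex scalars, the product of the cancellation factors
`min n ((‖u‖ + ‖v‖) / ‖u ± v‖)` (sup norms of coefficient vectors) of the additive gates is at
least `n ^ (n / 2)`.
-/

namespace Vale.Agent.Results.P344.Cancellation

open Vale.Agent.P344

theorem result (n : ℕ) (gs : List Gate) (out : Fin n → ℕ) (h : Computes n gs out) :
    (n : ℝ) ^ n ≤ ((kappaList gs (inputForms n)).prod) ^ 2 ∧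
    ∀ c : ℝ, 1 ≤ c → (n : ℝ) ^ n ≤
      (c ^ gs.length * (n : ℝ) ^ ((kappaList gs (inputForms n)).countP fun x => c < x)) ^ 2 :=
  cancel_bound' h

end Vale.Agent.Results.P344.Cancellation
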