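import Vale.Agent.P344.Main

/-!
P344: every linear circuit (gates `u + v`, `u - v`, `c * u` with arbitrary complex `c`, each of
cost one) computing the unnormalized discrete Fourier transform of order `n ≥ 2` has at least
`4 n - 2 τ(n) - 2` gates, where `τ(n)` is the number of divisors of `n`.
-/

namespace Vale.Agent.Results.P344.FourN

open Vale.Agent.P344

theorem result (n : ℕ) (hn : 2 ≤ n) (gs : List Gate) (out : Fin n → ℕ)
    (h : Computes n gs out) :
    4 * n ≤ gs.length + 2 * (Nat.divisors n).card + 2 :=
  total_bound hn h

end Vale.Agent.Results.P344.FourN
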