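import Vale.Agent.P344.DefL
import Vale.Agent.P344.Exists

/-!
P344: the minimum `L n` is attained, and `L n ≥ 4 n - 2 τ(n) - 2` for every `n ≥ 2`,
where `τ(n)` is the number of divisors of `n`.
-/

namespace Vale.Agent.Results.P344.LowerBoundL

open Vale.Agent.P344

theorem result (n : ℕ) (hn : 2 ≤ n) :
    (∃ (gs : List Gate) (out : Fin n → ℕ), gs.length = L n ∧ Computes n gs out) ∧
      4 * n ≤ L n + 2 * (Nat.divisors n).card + 2 := by
  have hne : {s : ℕ | ∃ (gs : List Gate) (out : Fin n → ℕ),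
      gs.length = s ∧ Computes n gs out}.Nonempty := by
    obtain ⟨gs, out, h⟩ := exists_computes n
    exact ⟨gs.length, gs, out, rfl, h⟩
  have hmem := Nat.sInf_mem hne
  obtain ⟨gs, out, hlen, h⟩ := hmem
  refine ⟨⟨gs, out, hlen, h⟩, ?_⟩
  have := total_bound hn h
  rw [hlen] at this
  exact this

end Vale.Agent.Results.P344.LowerBoundL
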